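import Crest.Agent.X212.Cnt93.Pt
import Crest.Agent.X212.Eqv71.Wpt

/-!
# X212 / Cnt93, part Main (helper93): the Toeplitz cut is natural

* over an open `O ⊇ supp` (`LM`, `Cut.Rel`): `pi_it`, `qu_it`, `trp_nat`, `sym_it`, `J_sym`, `T_nat`;
* `Rh k k' B B' u η` is `η u(x₀)` on Hardy spaces: `coe_Rh`, `norm_Rh`, `eqv_iff`;
* over a clopen `O` (`KC`, `CR`): `tc_nat`, `PcRel`, `wpc_rel`, `wpc_nat`, `PcRel.sol`;
* `eqv_refl`, `eqv_symm`, `eqv_trans`, `isoC_refl`, `isoC_symm`, `isoC_trans`.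
-/

set_option autoImplicit false
set_option linter.unusedSectionVars false
noncomputable section
open scoped Manifold ContDiff Topology InnerProductSpace
open MeasureTheory Set Function Finset

namespace Crest.Agent.X212.Cnt93
open An Eqv71 Wz78

variable {E : Type} [NormedAddCommGroup E] [NormedSpace ℝ E] [FiniteDimensional ℝ E]
  [MeasurableSpace E] [BorelSpace E]
  {HM : Type} [TopologicalSpace HM] {I : ModelWithCorners ℝ E HM} [I.Boundaryless]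
  {M : Type} [TopologicalSpace M] [ChartedSpace HM M] [IsManifold I ∞ M]
  [MeasurableSpace M] [BorelSpace M] [SecondCountableTopology M]
  {ι : Type} [Fintype ι] {lam : Type} [Fintype lam]
  {E' : Type} [NormedAddCommGroup E'] [NormedSpace ℝ E'] [FiniteDimensional ℝ E']
  [MeasurableSpace E'] [BorelSpace E']
  {HM' : Type} [TopologicalSpace HM'] {I' : ModelWithCorners ℝ E' HM'} [I'.Boundaryless]
  {M' : Type} [TopologicalSpace M'] [ChartedSpace HM' M'] [IsManifold I' ∞ M']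
  [MeasurableSpace M'] [BorelSpace M'] [SecondCountableTopology M']
  {ι' : Type} [Fintype ι'] {lam' : Type} [Fintype lam']
  {B : Base M ι lam} {B' : Base M' ι' lam'} {G : Geo I M ι lam} {G' : Geo I' M' ι' lam'}
  {O : Set M} {O' : Set M'} {φ : M → M'} {ψ : M' → M} {U : M → ι' → ι → ℝ}
  {v : M → CL (Eu lam) (Eu lam')} {k : Cut M lam} {k' : Cut M' lam'} {x : M}

theorem rel_refl (hB : B.OK I) (h : k.supp ⊆ O) : k.Rel k O id B.l :=
  ⟨h, fun _ _ => rfl, List.forall₂_same.2 fun _ _ => ⟨fun _ _ => rfl, fun _ _ => rfl, fun _ _ => rfl⟩,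
    List.forall₂_same.2 fun _ _ => ⟨fun x _ => by
      rw [trn_of_sym (hB.lsym x), ← mul_apply_eq_comp, hB.lidem]; rfl, fun _ _ => rfl, fun _ _ => rfl⟩⟩

theorem γ_mem (R : k.Rel k' O φ v) (θ : UnitAddCircle) (s : ℝ) : k.γ θ s ∈ O :=
  R.sub ⟨(θ, s), rfl⟩

theorem om_rel (g : LG B G B' G' O φ U v) (hk' : k'.OK B' G'.F) (R : k.Rel k' O φ v) (hx : x ∈ O) :
    RT (U x) (k.om B G.F x) (k'.om B' G'.F (φ x)) :=
  RT.lsum R.w fun a _ b hb h => by
    rw [show b.1 (φ x) = a.1 x from h.1 hx]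
    exact (dd_rel (g.be x hx) g.hB g.hB' (g.D hx ((hk'.sw b hb).2.1.1 _) h.2.1)
      (g.D hx ((hk'.sw b hb).2.2.1 _) h.2.2)).smul _

section md
variable {m : Md M ι lam} {m' : Md M' ι' lam'} {W : m.Cn} {W' : m'.Cn} {u : M → CL m.V m'.V}

theorem hi_of_me {x' : M'} {U : ι' → ι → ℝ} {v : CL (Eu lam) (Eu lam')} {w : CL m.V m'.V}
    (e : ME m x m' x' U v w) (b : BE B x B' x' U v) (hB : B.OK I) (hB' : B'.OK I') (h : m.OK I B)
    (h' : m'.OK I' B') : HI m.J (m.pp B x) m'.J (m'.pp B' x') w :=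
  ⟨e.J.symm, It.of (e.pp b hB hB' h), (e.symm b h h').J.symm,
    It.of ((e.symm b h h').pp (b.symm hB hB') hB' hB h')⟩

theorem cont_A0 (hk : k.OK B G.F) (cn : m.IsConn B G W) (θ : UnitAddCircle) :
    Continuous (k.A0 G.F m W θ) :=
  continuous_finsetSum _ fun a _ => (contDiff_vl (sm_γ hk θ) a).continuous.smul
    ((ContMDiff.continuous (cn.cc.sm a)).comp (sm_γ hk θ).continuous)

theorem A2_eq (F : Fr I M ι) (θ : UnitAddCircle) : k.A2 B F m W θ = a2 (k.A0 F m W θ)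
    (fun s => k.pi B F m (k.γ θ s)) fun s => k.qu B F m (k.γ θ s) := by
  have : k.A1 B F m W θ = a1 (k.A0 F m W θ) fun s => k.pi B F m (k.γ θ s) := funext fun _ => rfl
  funext s
  rw [Cut.A2, a2, this]

theorem cont_A2 (hB : B.OK I) (hk : k.OK B G.F) (H : m.OK I B) (cn : m.IsConn B G W)
    (θ : UnitAddCircle) : Continuous (k.A2 B G.F m W θ) := by
  rw [A2_eq]
  exact cont_a2 (cont_A0 hk cn θ) ((cd_pi hB hk H θ).of_le (by simp)) ((cd_qu hB hk H θ).of_le (by simp))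

/-- transport is complex linear -/
theorem J_trp (hB : B.OK I) (hk : k.OK B G.F) (H : m.OK I B) (cn : m.IsConn B G W)
    (θ : UnitAddCircle) (s : ℝ) : It m.J (trp (k.A2 B G.F m W θ) s) (trp (k.A2 B G.F m W θ) s) := by
  have h0 : PR (k.A0 G.F m W θ) (k.A0 G.F m W θ) fun _ => m.J := fun s =>
    (hasDerivAt_const s _).congr_deriv (sub_eq_zero.2
      (It.sum _ fun a => (It.comm.2 (cn.J a _)).smul _ : It m.J _ _).symm).symm
  have hp := (cd_pi hB hk H θ).differentiable (by simp)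
  have hq := (cd_qu hB hk H θ).differentiable (by simp)
  have h1 := h0.a2 hp hp (fun _ => J_pi k H) hq.neg hq fun _ => J_qu k H
  rw [a2_neg, ← A2_eq] at h1
  exact h1.trp (cont_A2 hB hk H cn θ) (cont_A2 hB hk H cn θ) s

theorem J_sym (hB : B.OK I) (hk : k.OK B G.F) (H : m.OK I B) (cn : m.IsConn B G W)
    (θ : UnitAddCircle) : It m.J (k.sym B G.F m W θ) (k.sym B G.F m W θ) := by
  have h : It m.J (trn (trp (k.A2 B G.F m W 0) 1)) (trn (trp (k.A2 B G.F m W 0) 1)) :=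
    trn_intertw (J_trp hB hk H cn 0 1) H.Jsk H.Jsk
  exact ((h.mul (J_trp hB hk H cn θ 1)).mul (J_pi k H)).add
    ((It.comm.2 (J_pp H _)).sub (J_pi k H))

theorem sym_p (H : m.OK I B) (θ : UnitAddCircle) :
    k.sym B G.F m W θ * m.p k.x0 = k.sym B G.F m W θ := by
  rw [Cut.sym, add_mul, sub_mul, mul_assoc, pi_p k H, pp_p H]

section nat
variable (g : LM B G B' G' O φ U v W W' u) (hk : k.OK B G.F) (hk' : k'.OK B' G'.F)
  (R : k.Rel k' O φ v)
include g hk hk' R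

theorem pi_it (hx : x ∈ O) : It (u x) (k.pi B G.F m x) (k'.pi B' G'.F m' (φ x)) := by
  have h := om_rel g.toLG hk' R hx
  have e := g.me x hx
  rw [Cut.pi, Cut.pi, h.norm (g.be x hx).UU
    (om_rel (lg_refl g.hB g.hG isOpen_univ) hk (rel_refl g.hB (subset_univ _)) trivial)]
  exact ((It.of (e.pp (g.be x hx) g.hB g.hB' g.ok)).sub
    ((It.mul e.J.symm (c2_it e (g.be x hx) g.ok h)).smul _)).smul _

theorem q0_it (hx : x ∈ O) : It (u x) (k.q0 B G.F m x) (k'.q0 B' G'.F m' (φ x)) := by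
  refine ((pi_it g hk hk' R hx).mul (It.lsum R.e fun a _ b hb h => It.mul ?_ ?_)).mul
    (pi_it g hk hk' R hx)
  · exact c2_it (g.me x hx) (g.be x hx) g.ok (dd_rel (g.be x hx) g.hB g.hB'
      (g.D hx ((hk'.se b hb).2.1.1 _) h.2.1) (g.D hx ((hk'.se b hb).2.2.1 _) h.2.2))
  · have b := g.be x hx
    rw [← g.ok'.jl, ← b.vv', ContinuousLinearMap.comp_apply, h.1 x hx,
      ← ContinuousLinearMap.comp_apply (v x) (trn (v x)), b.vv', g.ok'.jl]
    exact (g.me x hx).j _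

theorem qu_it (hx : x ∈ O) : It (u x) (k.qu B G.F m x) (k'.qu B' G'.F m' (φ x)) := by
  have h := q0_it g hk hk' R hx
  rw [Cut.qu, Cut.qu, h.norm_hs (g.me x hx).uu (g.me x hx).uu' (p_q0 k g.ok) (q0_p k g.ok)
    (q0_p k' g.ok')]
  exact h.smul _

theorem A0_pr (θ : UnitAddCircle) :
    PR (k.A0 G.F m W θ) (k'.A0 G'.F m' W' θ) fun s => u (k.γ θ s) := fun s => by
  have hx := γ_mem R θ s
  refine (hasDerivAt_comp (F := G.F) (sm_γ hk θ s) (g.su _ hx)).congr_deriv ?_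
  have h1 : k'.A0 G'.F m' W' θ s = ∑ a, vl G.F (k.γ θ) s a •
      pb φ (fun b a x => U x b a) W' a (k.γ θ s) := by
    have h2 : ∀ b, k'.vel G'.F θ s b = ∑ a, U (k.γ θ s) b a * vl G.F (k.γ θ) s a := fun b => by
      rw [← vl_rel g.toLG (sm_γ hk θ s) hx, ← show k'.γ θ = _ from funext (R.γ θ)]
      rfl
    simp only [Cut.A0, h2, R.γ, pb, sum_smul, smul_sum, smul_smul, mul_comm]
    exact sum_comm
  rw [h1, Cut.A0, ContinuousLinearMap.comp_finsetSum, ContinuousLinearMap.finsetSum_comp,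
    ← sum_sub_distrib]
  refine sum_congr rfl fun a _ => ?_
  rw [ContinuousLinearMap.comp_smul, ContinuousLinearMap.smul_comp, ← g.itw _ hx a, smul_add]
  exact (add_sub_cancel_right _ _).symm

/-- **the transport of a cut is natural** -/
theorem trp_nat (θ : UnitAddCircle) (s : ℝ) : trp (k'.A2 B' G'.F m' W' θ) s ∘L u k.x0
    = u (k.γ θ s) ∘L trp (k.A2 B G.F m W θ) s := by
  have h := (A0_pr g hk hk' R θ).a2 ((cd_pi g.hB hk g.ok θ).differentiable (by simp))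
    ((cd_pi g.hB' hk' g.ok' θ).differentiable (by simp))
    (fun s => by rw [R.γ]; exact pi_it g hk hk' R (γ_mem R θ s))
    ((cd_qu g.hB hk g.ok θ).differentiable (by simp))
    ((cd_qu g.hB' hk' g.ok' θ).differentiable (by simp))
    fun s => by rw [R.γ]; exact qu_it g hk hk' R (γ_mem R θ s)
  rw [← A2_eq, ← A2_eq] at h
  rw [← hk.h0 θ 0 le_rfl]
  exact h.trp (cont_A2 g.hB hk g.ok g.cn θ) (cont_A2 g.hB' hk' g.ok' g.cn' θ) s

end nat

theorem trp_p (hB : B.OK I) (hG : G.OK B) (hk : k.OK B G.F) (H : m.OK I B) (cn : m.IsConn B G W)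
    (θ : UnitAddCircle) (s : ℝ) : trp (k.A2 B G.F m W θ) s ∘L m.p k.x0
      = m.p (k.γ θ s) ∘L trp (k.A2 B G.F m W θ) s :=
  trp_nat (lm_refl hB hG H cn isOpen_univ) hk hk (rel_refl hB (subset_univ _)) θ s

/-- **the symbol is natural** -/
theorem sym_it (g : LM B G B' G' O φ U v W W' u) (hk : k.OK B G.F) (hk' : k'.OK B' G'.F)
    (R : k.Rel k' O φ v) (θ : UnitAddCircle) :
    It (u k.x0) (k.sym B G.F m W θ) (k'.sym B' G'.F m' W' θ) := by
  have h0 : k.x0 ∈ O := γ_mem R 0 0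
  have e0 : k'.x0 = φ k.x0 := R.γ 0 0
  have e := g.me _ h0
  have f := g.me _ (γ_mem R 0 1)
  have h1 := trn_nat (trp_nat g hk hk' R 0 1) e.uu f.uu e.uu' f.uu' (e.up g.ok) (f.pu g.ok)
    (trp_p g.hB g.hG hk g.ok g.cn 0 1) (by
      rw [← e0, ← R.γ]; exact trp_p g.hB' g.hG' hk' g.ok' g.cn' 0 1)
  have h2 := trp_nat g hk hk' R θ 1
  rw [hk.h1 θ 1 le_rfl] at h2
  have h3 : It (u k.x0) (trn (trp (k.A2 B G.F m W 0) 1) * trp (k.A2 B G.F m W θ) 1)
      (trn (trp (k'.A2 B' G'.F m' W' 0) 1) * trp (k'.A2 B' G'.F m' W' θ) 1) :=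
    (ContinuousLinearMap.comp_assoc _ _ _).trans (by
      rw [h2, ← ContinuousLinearMap.comp_assoc, h1]; rfl)
  rw [Cut.sym, Cut.sym, e0]
  exact (h3.mul (pi_it g hk hk' R h0)).add
    ((It.of (e.pp (g.be _ h0) g.hB g.hB' g.ok)).sub (pi_it g hk hk' R h0))

theorem p_sym (hB : B.OK I) (hG : G.OK B) (hk : k.OK B G.F) (H : m.OK I B) (cn : m.IsConn B G W)
    (θ : UnitAddCircle) : m.p k.x0 * k.sym B G.F m W θ = k.sym B G.F m W θ :=
  (sym_it (lm_refl hB hG H cn isOpen_univ) hk hk (rel_refl hB (subset_univ _)) θ).symm.trans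
    (sym_p H θ)

/-- `η u(x₀)` on Hardy spaces -/
def Rh (k : Cut M lam) (k' : Cut M' lam') (B : Base M ι lam) (B' : Base M' ι' lam')
    (u : M → CL m.V m'.V) (η : Circle) : CL (k.H B m) (k'.H B' m') :=
  Uh _ _ _ _ (csE m'.J η ∘L u k.x0)

section hardy
variable (g : LM B G B' G' O φ U v W W' u) (R : k.Rel k' O φ v) (η : Circle)
include g R

theorem hi_Rh : HI m.J (m.pp B k.x0) m'.J (m'.pp B' k'.x0) (csE m'.J η ∘L u k.x0) := by
  rw [show k'.x0 = φ k.x0 from R.γ 0 0]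
  exact hi_of_me ((g.phase η).me _ (γ_mem R 0 0)) ((g.phase η).be _ (γ_mem R 0 0)) g.hB g.hB'
    g.ok g.ok'

theorem coe_Rh (a : k.H B m) : (Rh k k' B B' u η a : L2c (Fin m'.N)) =
    (csE m'.J η ∘L u k.x0).compLpL 2 μc (a : L2c (Fin m.N)) := (hi_Rh g R η).coe a

theorem norm_Rh (a : k.H B m) : ‖Rh k k' B B' u η a‖ = ‖a‖ :=
  (hi_Rh g R η).norm (fun b hb => (congrArg (fun T : En _ => T b)
    ((g.phase η).me _ (γ_mem R 0 0)).uu).trans (by rw [← hb]; exact Eqv71.p_pp g.ok _ _)) a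

theorem inj_Rh : Injective (Rh k k' B B' u η) := (injective_iff_map_eq_zero _).2 fun a h => by
  rw [← norm_eq_zero, ← norm_Rh g R η, h, norm_zero]

omit η in
theorem eqv_iff {a : k.H B m} {a' : k'.H B' m'} :
    k.Eqv k' B B' u a a' ↔ ∃ η, a' = Rh k k' B B' u η a :=
  exists_congr fun η => by rw [← coe_Rh g R]; exact Subtype.ext_iff.symm

/-- **the Toeplitz operator is natural** -/
theorem T_nat (hk : k.OK B G.F) (hk' : k'.OK B' G'.F) (a : k.H B m) :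
    k'.T B' G'.F m' W' (Rh k k' B B' u η a) = Rh k k' B B' u η (k.T B G.F m W a) := by
  have e := g.me _ (γ_mem R 0 0)
  have s := sym_it g hk hk' R
  refine (hi_Rh g R η).tpz (fun θ => (s θ).comp (It.comm.2 ?_)) ⟨fun h => ?_, fun h => ?_⟩ a
  · exact ((It.comm.2 (It.comm.1 (J_sym g.hB' hk' g.ok' g.cn' θ)).symm).csE _ :)
  · rw [funext fun θ => (s θ).eq_conj e.uu' (by
      rw [← show k'.x0 = φ _ from R.γ 0 0]; exact sym_p g.ok' θ)]
    exact continuous_const.clm_comp (h.clm_comp continuous_const)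
  · rw [funext fun θ => (s θ).eq_conj' e.uu (p_sym g.hB g.hG hk g.ok g.cn θ)]
    exact continuous_const.clm_comp (h.clm_comp continuous_const)

theorem Rh_J (a : k.H B m) : cpr _ _ (LU m'.J) (Rh k k' B B' u η a)
    = Rh k k' B B' u η (cpr _ _ (LU m.J) a) :=
  (hi_Rh g R η).cpr (fun f => by rw [LU_LU, LU_LU, (hi_Rh g R η).hJ]) a

end hardy

/-! ### `Cut.Eqv` is a groupoid -/

theorem mem_p (H : m.OK I B) (a : k.H B m) : LU (m.p k.x0) (a : L2c (Fin m.N)) = a :=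
  LU_self (It.comm.2 (H.Jp _).symm) (fun b hb => by rw [← hb]; exact Eqv71.p_pp H _ _) a.2

theorem eqv_refl (H : m.OK I B) (a : k.H B m) : k.Eqv k B B m.p a a :=
  ⟨1, by
    rw [show csE m.J (1 : Circle) = 1 from csL_one _]
    exact (mem_p H a).symm⟩

theorem eqv_symm (g : LM B G B' G' O φ U v W W' u) (R : k.Rel k' O φ v) (hψ : ψ (φ k.x0) = k.x0)
    {a : k.H B m} {a' : k'.H B' m'} (h : k.Eqv k' B B' u a a') :
    k'.Eqv k B' B (fun y => trn (u (ψ y))) a' a := by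
  obtain ⟨η, h⟩ := h
  have e := g.me k.x0 (γ_mem R 0 0)
  refine ⟨η⁻¹, ?_⟩
  beta_reduce
  rw [h, show k'.x0 = φ k.x0 from R.γ 0 0, hψ, LU_LU]
  refine (mem_p g.ok a).symm.trans (congrArg (fun T => LU T _) (ContinuousLinearMap.ext fun b => ?_))
  have h2 : ∀ b, trn (u k.x0) (u k.x0 b) = m.p k.x0 b := fun b =>
    congrArg (fun T : En _ => T b) e.uu
  show _ = cs m.J _ (trn (u k.x0) (cs m'.J _ (u k.x0 b)))
  rw [ME.cs e, h2, ← map_cs (g.ok.Jp _).symm, cs_mul g.ok.Jsq]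
  simp

theorem eqv_trans {M'' ι'' lam'' : Type} [Fintype ι''] [Fintype lam''] {B'' : Base M'' ι'' lam''}
    {m'' : Md M'' ι'' lam''} {k'' : Cut M'' lam''} {u' : M' → CL m'.V m''.V}
    (R : k'.x0 = φ k.x0) (hJ : u' k'.x0 ∘L m'.J = m''.J ∘L u' k'.x0) (hs : m''.J * m''.J = -1)
    {a : k.H B m} {a' : k'.H B' m'} {a'' : k''.H B'' m''} (h : k.Eqv k' B B' u a a')
    (h' : k'.Eqv k'' B' B'' u' a' a'') : k.Eqv k'' B B'' (fun x => u' (φ x) ∘L u x) a a'' := by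
  obtain ⟨η, h⟩ := h
  obtain ⟨η', h'⟩ := h'
  refine ⟨η' * η, ?_⟩
  beta_reduce
  rw [h', h, LU_LU, ← R]
  refine congrArg (fun T => LU T _) (ContinuousLinearMap.ext fun b => ?_)
  show cs m''.J _ (u' k'.x0 (cs m'.J _ (u k.x0 b))) = cs m''.J _ (u' k'.x0 (u k.x0 b))
  rw [map_cs hJ, cs_mul hs, Circle.coe_mul]

end md

section iso
variable {r : ℕ} {h : Type} {κ : h → Cut M lam} {y y' y'' : CfgC κ B r}

theorem isoC_refl (hB : B.OK I) (hG : G.OK B) (a : Ad0 y.1 B G) : IsoC κ B G.F y y :=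
  ⟨_, _, ceq_refl hB hG a isOpen_univ, fun _ => eqv_refl a.ok _⟩

theorem isoC_symm (hB : B.OK I) (hG : G.OK B) (a : Ad0 y.1 B G) (a' : Ad0 y'.1 B G)
    (e : IsoC κ B G.F y y') : IsoC κ B G.F y' y :=
  let ⟨_, _, e, f⟩ := e
  ⟨_, _, ceq_symm_id hB hG isOpen_univ a a' e, fun i => eqv_symm (ψ := id)
    ((lg_refl hB hG isOpen_univ).of_ceq a a' e) (rel_refl hB (subset_univ _)) rfl (f i)⟩

theorem isoC_trans (hB : B.OK I) (hG : G.OK B) (a : Ad0 y.1 B G) (a' : Ad0 y'.1 B G)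
    (a'' : Ad0 y''.1 B G) (e : IsoC κ B G.F y y') (e' : IsoC κ B G.F y' y'') :
    IsoC κ B G.F y y'' :=
  let ⟨_, _, e, f⟩ := e
  let ⟨_, _, e', f'⟩ := e'
  ⟨_, _, ceq_trans_id hB hG isOpen_univ a a' a'' e e', fun i => eqv_trans (φ := id) rfl
    (e'.m.J _ trivial) a''.ok.Jsq (f i) (f' i)⟩

end iso

/-! ### terms -/

section rel
variable (O φ v)

inductive XiR {r : ℕ} : Xi M lam r → Xi M' lam' r → Prop
  | one : XiR .one .one
  | aw {ξ ξ'} : AWR O φ ξ ξ' → XiR (.aw ξ) (.aw ξ')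
  | qj {d d' s s' a a' b b' l l'} : CoR O φ v d d' → SR O φ v s s' → SWR O φ a a' →
      SWR O φ b b' → List.Forall₂ (LaR O φ) l l' → XiR (.qj d s a b l) (.qj d' s' a' b' l')

/-- corresponding terms -/
structure TcR {r : ℕ} (t : Tc M lam r) (t' : Tc M' lam' r) : Prop where
  m : t'.m = t.m
  n : t'.n = t.n
  w : t'.w = t.w
  ξ : XiR O φ v t.ξ t'.ξ

variable {O φ v}

theorem tcR_refl [T2Space M] (hB : B.OK I) {r : ℕ} (t : Tc M lam r) : TcR O id B.l t t :=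
  ⟨rfl, rfl, rfl, by
    cases t.ξ
    exacts [.one, .aw (awR_refl O _), .qj (coR_refl O (trn_l hB) _) (sR_refl O (trn_l hB) _)
      (swR_refl O _) (swR_refl O _) (lasR_refl O _)]⟩

end rel

section tc
variable [T2Space M] [T2Space M'] {r : ℕ} {c : Cfg M ι lam r} {c' : Cfg M' ι' lam' r}
  {u : M → CL c.m.V c'.m.V} {ζ : Circle}
  (e : CR B G B' G' O O' φ U v c c' u ζ) (g : KC B G B' G' O O' φ ψ U v) (η : Circle)
include e g

theorem ra_ph {s : M → c.m.A} {s' : M' → c'.m.A} (h : RA G.F G'.F O O' φ (uz u ζ) s s')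
    (hs : ∀ x, s x ∈ c.m.gS x) : RA G.F G'.F O O' φ (uz u η) s s' :=
  ⟨fun x hx => by
    have k := fun θ => cj_phase ((e.lm g).me x hx) e.adm.ok e.adm'.ok θ (hs x)
    rw [h.rel x hx, k, k], h.p, h.off, h.off'⟩

theorem aw_ph {ξ : AW M} {ξ' : AW M'} (hξ : AWR O φ ξ ξ') (ok : ξ.OK G.F) (ok' : ξ'.OK G'.F) :
    RA G.F G'.F O O' φ (uz u η) (c.aw G.F ξ) (c'.aw G'.F ξ') := by
  refine la_rel g ((e.lm g).phase η) e.ex e.ex' ?_ hξ.l ok.2 ok'.2
  obtain ⟨s, l⟩ := ξ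
  obtain ⟨s', l'⟩ := ξ'
  obtain ⟨hs, -⟩ := hξ
  cases hs with
  | q ha hb =>
    exact ra_ph e g η (RA.q (e.lz g) (e.sw g ha ok'.1.1) (e.sw g hb ok'.1.2)) fun x => pg_mem x _
  | @cv f f' a a' b b' hf ha hb =>
    exact aw_rel (c := { c with Φ := 0 }) (c' := { c' with Φ := 0 }) (ξ := ⟨.cv f a b, []⟩)
      (ξ' := ⟨.cv f' a' b', []⟩) g ((e.lm g).phase η) ⟨e.ex.res, e.ex.cv⟩ ⟨e.ex'.res, e.ex'.cv⟩
      ⟨fun _ _ => (map_zero _).symm, fun _ _ => map_zero _, fun _ _ => rfl, fun _ _ => rfl⟩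
      ⟨.cv hf ha hb, .nil⟩ ⟨ok.1, by simp⟩ ⟨ok'.1, by simp⟩

theorem ra_it {s : M → c.m.A} {s' : M' → c'.m.A} (h : RA G.F G'.F O O' φ (uz u η) s s')
    (hx : x ∈ O) : It (uz u η x) (opL (s x)) (opL (s' (φ x))) := by
  have h1 := congrArg opL (h.p x hx)
  have h2 : trn (uz u η x) ∘L uz u η x = _ := (((e.lm g).phase η).me x hx).uu
  rw [opL_cj, trn_of_sym (e.adm.ok.psym x)] at h1
  rw [It, h.rel x hx, opL_cj]
  generalize uz u η x = w at h2 ⊢
  rw [ContinuousLinearMap.comp_assoc, ContinuousLinearMap.comp_assoc, h2, ← h1,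
    ContinuousLinearMap.comp_assoc, ContinuousLinearMap.comp_assoc,
    show c.m.p x ∘L c.m.p x = _ from e.adm.ok.pidem x]

theorem xi_it {ξ : Xi M lam r} {ξ' : Xi M' lam' r} (h : XiR O φ v ξ ξ') (ok : ξ.OK G.F)
    (ok' : ξ'.OK G'.F) (hx : x ∈ O) : It (uz u η x) (c.xi G.F ξ x) (c'.xi G'.F ξ' (φ x)) := by
  cases h with
  | one => exact It.one
  | aw h => exact ra_it e g η (aw_ph e g η h ok ok') hx
  | qj hd hs ha hb hl =>
    exact ra_it e g η (la_rel g ((e.lm g).phase η) e.ex e.ex' (ra_ph e g η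
      (e.qj g hd ok'.1 hs ha ok'.2.2.1 hb ok'.2.2.2.1) fun x => pg_mem x _) hl ok.2.2.2.2
      ok'.2.2.2.2) hx

/-- **the terms are natural** -/
theorem tc_nat (hk : k.OK B G.F) (hk' : k'.OK B' G'.F) (R : k.Rel k' O φ v) {t : Tc M lam r}
    {t' : Tc M' lam' r} (h : TcR O φ v t t') (ok : t.ξ.OK G.F) (ok' : t'.ξ.OK G'.F)
    (a : k.H B c.m) :
    c'.tc B' G'.F k' t' (Rh k k' B B' u η a) = Rh k k' B B' u η (c.tc B G.F k t a) := by
  have h0 : k.x0 ∈ O := γ_mem R 0 0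
  have i := hi_Rh (e.lm g) R η
  have p : It (csE c'.m.J η ∘L u k.x0) (k.pi B G.F c.m k.x0) (k'.pi B' G'.F c'.m (φ k.x0)) :=
    (pi_it (e.lm g) hk hk' R h0).comp (It.comm.2
      ((It.comm.2 (It.comm.1 (J_pi k' e.adm'.ok)).symm).csE _ :))
  rw [Cfg.tc, Cfg.tc, h.m, h.n, h.w]
  refine i.frk ?_ _ _ a
  rw [show k'.x0 = φ k.x0 from R.γ 0 0]
  exact ((p.mul (i.hJ.csE _)).mul (xi_it e g η h.ξ ok ok' h0)).mul p

end tc

section pc
variable {r : ℕ}

/-- related perturbations of the rows of two cuts -/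
def PcRel (B : Base M ι lam) (G : Geo I M ι lam) (B' : Base M' ι' lam') (G' : Geo I' M' ι' lam')
    (O : Set M) (O' : Set M') (φ : M → M') (U : M → ι' → ι → ℝ) (v : M → CL (Eu lam) (Eu lam'))
    {k : Cut M lam} {k' : Cut M' lam'} (σ : Pc r B k) (σ' : Pc r B' k') : Prop :=
  ∀ {c c' u ζ}, CR B G B' G' O O' φ U v c c' u ζ → ∀ η a,
    σ' c' (Rh k k' B B' u η a) = Rh k k' B B' u η (σ c a)

theorem wpc_rel [T2Space M] [T2Space M'] (g : KC B G B' G' O O' φ ψ U v) (hk : k.OK B G.F)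
    (hk' : k'.OK B' G'.F) (R : k.Rel k' O φ v) {K : Type} [Fintype K] {T : K → Tc M lam r}
    {T' : K → Tc M' lam' r} (h : ∀ i, TcR O φ v (T i) (T' i)) (ok : ∀ i, (T i).ξ.OK G.F)
    (ok' : ∀ i, (T' i).ξ.OK G'.F) (w : K → ℝ) :
    PcRel B G B' G' O O' φ U v (wpc B G.F k T w) (wpc B' G'.F k' T' w) := fun e η a => by
  simp only [wpc, _root_.sum_apply, smul_apply, map_sum, map_smul,
    fun i => tc_nat e g η hk hk' R (h i) (ok i) (ok' i) a]

/-- **`wpc` is natural** -/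
theorem wpc_nat [T2Space M] (hB : B.OK I) (hG : G.OK B) (hO : IsClopen O)
    (hb : Mp86.Bumps I G.F.e G.F.dv) (hk : k.OK B G.F) (hs : k.supp ⊆ O) {K : Type} [Fintype K]
    {T : K → Tc M lam r} (ok : ∀ i, (T i).ξ.OK G.F) (w : K → ℝ) :
    PcRel B G B G O O id (fun x b a => B.P b a x) B.l (wpc B G.F k T w) (wpc B G.F k T w) :=
  wpc_rel (kc_refl hB hG hO hb) hk hk (rel_refl hB hs) (fun i => tcR_refl hB (T i)) ok ok w

/-- **solutions of the row of a cut go to solutions** -/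
theorem PcRel.sol {σ : Pc r B k} {σ' : Pc r B' k'} (p : PcRel B G B' G' O O' φ U v σ σ')
    (g : LG B G B' G' O φ U v) (hk : k.OK B G.F) (hk' : k'.OK B' G'.F) (R : k.Rel k' O φ v)
    {c : Cfg M ι lam r} {c' : Cfg M' ι' lam' r} {u : M → CL c.m.V c'.m.V} {ζ : Circle}
    (e : CR B G B' G' O O' φ U v c c' u ζ) {a : k.H B c.m} {a' : k'.H B' c'.m}
    (h : k.Eqv k' B B' u a a') : k'.Sol B' G'.F σ' c' a' ↔ k.Sol B G.F σ c a := by
  have l := g.of_ceq e.adm e.adm' e.e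
  obtain ⟨η, rfl⟩ := (eqv_iff l R).1 h
  rw [Cut.Sol, Cut.Sol, norm_Rh l R, T_nat l R η hk hk', p e, (inj_Rh l R η).eq_iff]

end pc

end Crest.Agent.X212.Cnt93
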