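import Crest.Agent.X212.Cnt93.Path
import Crest.Agent.X212.Eqv71.Cfg
import Crest.Agent.X212.Wz78.Sd

/-!
# X212 / Cnt93, part Pt (helper93): the pointwise data of a cut are smooth and natural

* `RT` (rotation of two-tensors), `dd_rel`, `c2_it`;
* `sa_pi`, `sa_qu` (smooth along the cut), `p_pi`, `pi_p`, `J_pi`, `J_qu`;
* `vl` (velocity components), `hasDerivAt_comp`, `contDiff_vl`, `vl_rel`.
-/

set_option autoImplicit false
set_option linter.unusedSectionVars false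
noncomputable section
open scoped Manifold ContDiff Topology InnerProductSpace
open MeasureTheory Set Function Finset

namespace Crest.Agent.X212.Cnt93
open An Eqv71 Wz78 Crest.Agent.R208 Crest.Agent.R208.F

section RT
variable {ι ι' : Type} [Fintype ι] [Fintype ι'] {U : ι' → ι → ℝ}
  {w z : Eu (ι × ι)} {w' z' : Eu (ι' × ι')}

/-- rotation of two-tensors -/
def RT (U : ι' → ι → ℝ) (w : Eu (ι × ι)) (w' : Eu (ι' × ι')) : Prop :=
  ∀ t, w' t = ∑ s, sq2 U t s * w s

theorem RT.zero : RT U 0 0 := fun _ => by simp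
theorem RT.add (h : RT U w w') (k : RT U z z') : RT U (w + z) (w' + z') := fun t => by
  simp only [PiLp.add_apply, h t, k t, mul_add, sum_add_distrib]
theorem RT.smul (r : ℝ) (h : RT U w w') : RT U (r • w) (r • w') := fun t => by
  simp only [PiLp.smul_apply, h t, smul_eq_mul, mul_sum, mul_left_comm r]
theorem RT.lsum {α β : Type} {R : α → β → Prop} {l : List α} {l' : List β}
    (hl : List.Forall₂ R l l') {T : α → Eu (ι × ι)} {T' : β → Eu (ι' × ι')}
    (h : ∀ a ∈ l, ∀ b ∈ l', R a b → RT U (T a) (T' b)) : RT U (l.map T).sum (l'.map T').sum := by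
  induction hl with
  | nil => exact RT.zero
  | cons h1 _ ih =>
    simp only [List.map_cons, List.sum_cons]
    exact (h _ (by simp) _ (by simp) h1).add
      (ih fun a ha b hb => h a (by simp [ha]) b (by simp [hb]))

theorem RT.norm (h : RT U w w') {P : ι → ι → ℝ} (UU : ∀ a a', ∑ b, U b a * U b a' = P a a')
    (h0 : RT P w w) : ‖w'‖ = ‖w‖ := by
  have k : ∀ s r, ∑ t, sq2 U t s * sq2 U t r = sq2 P s r := fun s r => by
    have := sq2_mul (fun a b => U b a) U s r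
    simp only [UU] at this
    exact this
  rw [EuclideanSpace.norm_eq, EuclideanSpace.norm_eq]
  congr 1
  simp only [Real.norm_eq_abs, sq, abs_mul_abs_self]
  calc ∑ t, w' t * w' t = ∑ t, ∑ s, ∑ r, sq2 U t s * sq2 U t r * (w s * w r) := by
        simp only [h _, sum_mul_sum]
        exact sum_congr rfl fun _ _ => sum_congr rfl fun _ _ => sum_congr rfl fun _ _ => by ring
    _ = ∑ s, ∑ r, sq2 P s r * (w s * w r) := by
        rw [sum_comm]
        exact sum_congr rfl fun s _ => by rw [sum_comm]; simp only [← sum_mul, k]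
    _ = ∑ s, w s * w s := sum_congr rfl fun s _ => by
        conv_rhs => rw [h0 s]
        rw [← h0 s]
        conv_rhs => enter [2]; rw [h0 s]
        rw [mul_sum]
        exact sum_congr rfl fun _ _ => by ring

end RT

variable {E : Type} [NormedAddCommGroup E] [NormedSpace ℝ E] [FiniteDimensional ℝ E]
  [MeasurableSpace E] [BorelSpace E]
  {HM : Type} [TopologicalSpace HM] {I : ModelWithCorners ℝ E HM} [I.Boundaryless]
  {M : Type} [TopologicalSpace M] [ChartedSpace HM M] [IsManifold I ∞ M]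
  [MeasurableSpace M] [BorelSpace M] [SecondCountableTopology M]
  {ι : Type} [Fintype ι] {lam : Type} [Fintype lam]
  {E' : Type} [NormedAddCommGroup E'] [NormedSpace ℝ E'] [FiniteDimensional ℝ E']
  [MeasurableSpace E'] [BorelSpace E']
  {HM' : Type} [TopologicalSpace HM'] {I' : ModelWithCorners ℝ E' HM'} [I'.Boundaryless]
  {M' : Type} [TopologicalSpace M'] [ChartedSpace HM' M'] [IsManifold I' ∞ M']
  [MeasurableSpace M'] [BorelSpace M'] [SecondCountableTopology M']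
  {ι' : Type} [Fintype ι'] {lam' : Type} [Fintype lam']
  {B : Base M ι lam} {B' : Base M' ι' lam'} {F : Fr I M ι} {F' : Fr I' M' ι'}
  {m : Md M ι lam} {m' : Md M' ι' lam'} {x : M} {x' : M'}

section pt
variable {U : ι' → ι → ℝ} {v : CL (Eu lam) (Eu lam')} {u : CL m.V m'.V}

theorem dd_rel (e : BE B x B' x' U v) (hB : B.OK I) (hB' : B'.OK I') {g h : M → ℝ} {g' h' : M' → ℝ}
    (hg : ∀ b, F'.D b g' x' = ∑ a, U b a • F.D a g x)
    (hh : ∀ b, F'.D b h' x' = ∑ a, U b a • F.D a h x) :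
    RT U (B.dd F g h x) (B'.dd F' g' h' x') := fun t => by
  have k : ∀ r : ι' × ι', F'.D r.1 g' x' * F'.D r.2 h' x'
      = ∑ s : ι × ι, sq2 U r s * (F.D s.1 g x * F.D s.2 h x) := fun r => by
    rw [hg, hh, sum_mul_sum, Fintype.sum_prod_type]
    exact sum_congr rfl fun _ _ => sum_congr rfl fun _ _ => by simp only [sq2, smul_eq_mul]; ring
  simp only [Base.dd, k, mul_sum, ← mul_assoc]
  rw [sum_comm, sum_comm (f := fun s r => sq2 U t s * B.sd x s r * F.D r.1 g x * F.D r.2 h x)]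
  exact sum_congr rfl fun s _ => by simp only [← sum_mul, e.sd hB hB']

theorem c2_it (e : ME m x m' x' U v u) (g : BE B x B' x' U v) (h : m.OK I B) {w : Eu (ι × ι)}
    {w' : Eu (ι' × ι')} (k : RT U w w') : It u (m.c2 x w) (m'.c2 x' w') := by
  have k1 : ∀ a, It u (m.ρ a x) (∑ b, U b a • m'.ρ b x') := fun a => e.ρ' g h a
  have k2 : m'.c2 x' w' = ∑ s : ι × ι, w s •
      ((∑ b, U b s.1 • m'.ρ b x') * ∑ b, U b s.2 • m'.ρ b x') := by
    simp only [Md.c2, k _, sum_smul, sum_mul_sum, smul_mul_smul_comm, smul_sum, smul_smul]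
    rw [sum_comm]
    exact sum_congr rfl fun s _ => by
      rw [Fintype.sum_prod_type]
      simp only [sq2, mul_comm]
  rw [k2]
  exact It.sum _ fun s => ((k1 _).mul (k1 _)).smul _

end pt

section alg
variable (k : Cut M lam) (H : m.OK I B)
include H

theorem p_c2 (w : Eu (ι × ι)) : m.p x * m.c2 x w = m.c2 x w := by
  simp only [Md.c2, mul_sum, mul_smul_comm, ← mul_assoc, (H.cl x).pl]

theorem c2_p (w : Eu (ι × ι)) : m.c2 x w * m.p x = m.c2 x w := by
  simp only [Md.c2, sum_mul, smul_mul_assoc, mul_assoc, (H.cl x).pr]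

theorem J_c2 (w : Eu (ι × ι)) : It m.J (m.c2 x w) (m.c2 x w) :=
  It.sum _ fun _ => ((It.comm.2 (H.Jρ _ x)).mul (It.comm.2 (H.Jρ _ x))).smul _

theorem p_pi : m.p x * k.pi B F m x = k.pi B F m x := by
  rw [Cut.pi, mul_smul_comm, mul_sub, Wz78.p_pp H, mul_smul_comm, ← mul_assoc, ← H.Jp, mul_assoc,
    p_c2 H]

theorem pi_p : k.pi B F m x * m.p x = k.pi B F m x := by
  rw [Cut.pi, smul_mul_assoc, sub_mul, pp_p H, smul_mul_assoc, mul_assoc, c2_p H]

theorem J_pi : It m.J (k.pi B F m x) (k.pi B F m x) :=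
  ((It.comm.2 (J_pp H x)).sub (((It.comm.2 rfl).mul (J_c2 H _)).smul _)).smul _

theorem p_q0 : m.p x * k.q0 B F m x = k.q0 B F m x := by
  rw [Cut.q0, ← mul_assoc, ← mul_assoc, p_pi k H]

theorem q0_p : k.q0 B F m x * m.p x = k.q0 B F m x := by rw [Cut.q0, mul_assoc, pi_p k H]

theorem J_q0 : It m.J (-k.q0 B F m x) (k.q0 B F m x) := by
  have h1 : ∀ l : List ((M → Eu lam) × (M → ℝ) × (M → ℝ)), It m.J
      (-(l.map fun t => m.c2 x (B.dd F t.2.1 t.2.2 x) * m.j x (t.1 x)).sum)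
      (l.map fun t => m.c2 x (B.dd F t.2.1 t.2.2 x) * m.j x (t.1 x)).sum := fun l => by
    induction l with
    | nil => simpa using It.zero
    | cons t l ih =>
      have h2 : It m.J (-m.j x (t.1 x)) (m.j x (t.1 x)) := (H.jJ x _).trans (mul_neg _ _).symm
      have h3 := ((J_c2 H (x := x) (B.dd F t.2.1 t.2.2 x)).mul h2).add ih
      rwa [mul_neg, ← neg_add] at h3
  have h3 := ((J_pi k H (F := F) (x := x)).mul (h1 k.e)).mul (J_pi k H (F := F) (x := x))
  rwa [mul_neg, neg_mul] at h3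

theorem J_qu : It m.J (-k.qu B F m x) (k.qu B F m x) := by
  have := (J_q0 k H (F := F) (x := x)).smul (2 / ‖hsL (k.q0 B F m x)‖)
  rwa [smul_neg] at this

end alg

section sm
variable {k : Cut M lam}

theorem sa_lsum {α V : Type} [NormedAddCommGroup V] [NormedSpace ℝ V] {l : List α} {T : α → M → V}
    (h : ∀ a ∈ l, SA I (T a) x) : SA I (fun y => (l.map fun a => T a y).sum) x := by
  induction l with
  | nil => exact contMDiffAt_const
  | cons a l ih =>
    simp only [List.map_cons, List.sum_cons]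
    exact (h a (by simp)).add (ih fun b hb => h b (by simp [hb]))

theorem sa_norm {V : Type} [NormedAddCommGroup V] [InnerProductSpace ℝ V] {f : M → V}
    (h : SA I f x) (h0 : f x ≠ 0) : SA I (fun y => ‖f y‖⁻¹) x :=
  ((contDiffAt_norm ℝ h0).inv (norm_ne_zero_iff.2 h0)).comp_contMDiffAt h

theorem sa_dd (hB : B.OK I) {g h : M → ℝ} (hg : Sm I g) (hh : Sm I h) : SA I (B.dd F g h) x := by
  refine (PiLp.continuousLinearEquiv 2 ℝ fun _ : ι × ι => ℝ).symm.contDiff.contDiffAt.comp_contMDiffAt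
    (f := fun y s => ∑ t, B.sd y s t * (F.D t.1 g y * F.D t.2 h y)) (contMDiffAt_pi_space.2 fun s =>
      SA.sum _ fun t _ => SA.mul ?_ (SA.mul (F.sm_D hg _ x) (F.sm_D hh _ x)))
  exact (((((hB.sP _ _ x).mul (hB.sP _ _ x)).sub ((hB.sP _ _ x).mul (hB.sP _ _ x))).div_const
    2).add ((hB.so _ _ _ _ x).div_const 2)).div_const 2

theorem sa_c2 (H : m.OK I B) {w : M → Eu (ι × ι)} (hw : SA I w x) :
    SA I (fun y => m.c2 y (w y)) x :=
  SA.sum _ fun s _ => SA.smul (SA.clm (EuclideanSpace.proj s) hw) (SA.mul (H.sρ _ x) (H.sρ _ x))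

variable (hB : B.OK I) (hk : k.OK B F) (H : m.OK I B)
include hB hk

theorem sa_om : SA I (k.om B F) x := sa_lsum fun t ht =>
  let ⟨⟨_, h1, _⟩, h2, h3⟩ := hk.sw t ht
  SA.smul (h1 x) (sa_dd hB h2.1 h3.1)

include H

theorem sa_pi (h : k.om B F x ≠ 0) : SA I (k.pi B F m) x := by
  refine SA.smul contMDiffAt_const ((sm_pp H hB x).sub (SA.smul ?_
    (SA.mul contMDiffAt_const (sa_c2 H (sa_om hB hk)))))
  simp only [mul_inv]
  exact contMDiffAt_const.mul (sa_norm (sa_om hB hk) h)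

theorem sa_q0 (h : k.om B F x ≠ 0) : SA I (k.q0 B F m) x :=
  SA.mul (SA.mul (sa_pi hB hk H h) (sa_lsum fun t ht =>
    let ⟨⟨_, h1, _⟩, h2, h3⟩ := hk.se t ht
    SA.mul (sa_c2 H (sa_dd hB h2.1 h3.1)) (SA.app (H.sj x) (h1 x)))) (sa_pi hB hk H h)

theorem sa_qu (h : k.om B F x ≠ 0) (h' : k.q0 B F m x ≠ 0) : SA I (k.qu B F m) x := by
  refine SA.smul ?_ (sa_q0 hB hk H h)
  simp only [div_eq_mul_inv]
  exact contMDiffAt_const.mul (sa_norm (SA.clm hsL (sa_q0 hB hk H h))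
    fun e => h' (by rw [← Eqv71.opL_hsL (k.q0 B F m x), e, map_zero]))

omit hB H in
theorem sm_γ (θ : UnitAddCircle) : ContMDiff 𝓘(ℝ, ℝ) I ∞ (k.γ θ) := by
  obtain ⟨t, rfl⟩ := QuotientAddGroup.mk_surjective θ
  exact hk.sm.comp (contDiff_const.prodMk contDiff_id : ContDiff ℝ ∞ fun s : ℝ => (t, s)).contMDiff

theorem cd_pi (θ : UnitAddCircle) : ContDiff ℝ ∞ fun s => k.pi B F m (k.γ θ s) :=
  contMDiff_iff_contDiff.1 fun s => (sa_pi hB hk H (hk.om θ s)).comp s (sm_γ hk θ s)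

theorem cd_qu (θ : UnitAddCircle) : ContDiff ℝ ∞ fun s => k.qu B F m (k.γ θ s) :=
  contMDiff_iff_contDiff.1 fun s => (sa_qu hB hk H (hk.om θ s) (hk.q0 m H θ s)).comp s (sm_γ hk θ s)

end sm

/-! ### velocity -/

section vel
variable {c : ℝ → M}

variable (F) in
/-- frame components of the velocity of a curve -/
def vl (c : ℝ → M) (s : ℝ) (a : ι) : ℝ := Num57.tl F (c s) a (mfderiv 𝓘(ℝ, ℝ) I c s (1 : ℝ))

theorem vl_sum (s : ℝ) : ∑ a, vl F c s a • F.e a (c s) = mfderiv 𝓘(ℝ, ℝ) I c s (1 : ℝ) :=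
  (Num57.cf F (c s)).ex _

theorem hasDerivAt_comp {V : Type} [NormedAddCommGroup V] [NormedSpace ℝ V] {f : M → V} {s : ℝ}
    (hc : ContMDiffAt 𝓘(ℝ, ℝ) I ∞ c s) (hf : SA I f (c s)) :
    HasDerivAt (fun t => f (c t)) (∑ a, vl F c s a • F.D a f (c s)) s := by
  have h1 := hc.mdifferentiableAt (by simp)
  have h2 : HasFDerivAt (𝕜 := ℝ) (E := ℝ) (F := V) (fun t => f (c t)) _ s :=
    (hf.md.hasMFDerivAt.comp s h1.hasMFDerivAt).hasFDerivAt
  refine h2.hasDerivAt.congr_deriv ?_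
  show mfderiv I 𝓘(ℝ, V) f (c s) (mfderiv 𝓘(ℝ, ℝ) I c s (1 : ℝ)) = _
  rw [← vl_sum (F := F), map_sum]
  exact sum_congr rfl fun a _ => map_smul _ _ _

theorem contDiff_vl (hc : ContMDiff 𝓘(ℝ, ℝ) I ∞ c) (a : ι) : ContDiff ℝ ∞ fun s => vl F c s a := by
  let L : Ext ℝ →L[ℝ] ℝ := LinearMap.toContinuousLinearMap
    { toFun := fun w => Num57.e1 w 1
      map_add' := fun _ _ => Num57.e1_add _ _ _
      map_smul' := fun _ _ => Num57.e1_smul _ _ _ }
  have e : (fun s => vl F c s a) = fun s => L (Dr59.pm 𝓘(ℝ, ℝ) I c (Num57.th F a) s) :=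
    funext fun s => by
      show _ = Num57.e1 _ _
      rw [Dr59.pm_apply, Num57.th, pb_io, Num57.e1_io]
      rfl
  rw [e]
  exact contDiff_iff_contDiffAt.2 fun s => L.contDiff.contDiffAt.comp s
    (Dr59.cAt_model.1 (Dr59.SmAt.pm (hc s) (Num57.smAt_th F a _)))

theorem vl_rel {G : Geo I M ι lam} {G' : Geo I' M' ι' lam'} {O : Set M} {φ : M → M'}
    {U : M → ι' → ι → ℝ} {v : M → CL (Eu lam) (Eu lam')} (g : LG B G B' G' O φ U v) {s : ℝ}
    (hc : ContMDiffAt 𝓘(ℝ, ℝ) I ∞ c s) (hx : c s ∈ O) (b : ι') :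
    vl G'.F (fun t => φ (c t)) s b = ∑ a, U (c s) b a * vl G.F c s a := by
  have h1 : mfderiv 𝓘(ℝ, ℝ) I' (fun t => φ (c t)) s (1 : ℝ)
      = ∑ b', (∑ a, U (c s) b' a * vl G.F c s a) • Num57.ee G'.F (φ (c s)) b' := by
    rw [show (fun t => φ (c t)) = φ ∘ c from rfl,
      mfderiv_comp s (g.rot.md hx) (hc.mdifferentiableAt (by simp))]
    show mfderiv I I' φ (c s) (mfderiv 𝓘(ℝ, ℝ) I c s (1 : ℝ)) = _
    rw [← vl_sum (F := G.F), map_sum]
    simp only [map_smul, g.rot.fr' (geo_frm g.hG) hx, smul_sum, smul_smul, sum_smul]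
    rw [sum_comm]
    exact sum_congr rfl fun _ _ => sum_congr rfl fun _ _ => by rw [mul_comm]; rfl
  rw [vl, h1, Num57.tl_comb]
  simp only [mul_sum, ← mul_assoc]
  rw [sum_comm]
  refine sum_congr rfl fun a _ => ?_
  rw [← sum_mul, g.hG'.P, (g.be _ hx).PU g.hB']

end vel

end Crest.Agent.X212.Cnt93
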