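import Crest.Agent.X212.An.Cut
import Crest.Agent.X212.Eqv71.PE
import Crest.Agent.X212.Tmp64.Ode

/-!
# X212 / Cnt93, part Path (helper93): intertwiners along a path and on Hardy spaces

* `It u T T'` : `T' u = u T`;  `PR A A' u` : `u` is parallel along the path;
* `trp_spec`, `PR.trp`, `PR.a2`, `it_sym`;
* `LU u` (action on `L²`), `Uh` (action on Hardy spaces), `HI`, `HI.coe`, `HI.tpz`, `HI.frk`.
-/

set_option autoImplicit false
set_option linter.unusedSectionVars false
noncomputable section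
open scoped ContDiff Topology InnerProductSpace ENNReal
open MeasureTheory Set Function

namespace Crest.Agent.X212.Cnt93
open An Eqv71

variable {κ κ' κ'' : Type} [Fintype κ] [Fintype κ'] [Fintype κ'']

/-- `u` intertwines `T` and `T'` -/
def It (u : CL (Eu κ) (Eu κ')) (T : En κ) (T' : En κ') : Prop := T' ∘L u = u ∘L T

namespace It
variable {u : CL (Eu κ) (Eu κ')} {S T : En κ} {S' T' : En κ'}

theorem app (h : It u T T') (a : Eu κ) : T' (u a) = u (T a) :=
  congrArg (fun X : CL (Eu κ) (Eu κ') => X a) h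
theorem of (h : ∀ a, T' (u a) = u (T a)) : It u T T' := ContinuousLinearMap.ext h
theorem one : It u 1 1 := rfl
theorem zero : It u 0 0 := of fun a => by simp
theorem mul (h : It u S S') (k : It u T T') : It u (S * T) (S' * T') :=
  of fun a => by simp only [mul_apply_eq_comp, k.app, h.app]
theorem add (h : It u S S') (k : It u T T') : It u (S + T) (S' + T') :=
  of fun a => by simp only [add_apply, k.app, h.app, map_add]
theorem sub (h : It u S S') (k : It u T T') : It u (S - T) (S' - T') :=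
  of fun a => by simp only [sub_apply, k.app, h.app, map_sub]
theorem neg (h : It u S S') : It u (-S) (-S') :=
  of fun a => by simp only [neg_apply, h.app, map_neg]
theorem smul (r : ℝ) (h : It u S S') : It u (r • S) (r • S') :=
  of fun a => by simp only [smul_apply, h.app, map_smul]
theorem sum {α : Type} (s : Finset α) {T : α → En κ} {T' : α → En κ'}
    (h : ∀ a, It u (T a) (T' a)) : It u (∑ a ∈ s, T a) (∑ a ∈ s, T' a) :=
  of fun v => by simp only [_root_.sum_apply, (h _).app, map_sum]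
theorem lsum {α β : Type} {R : α → β → Prop} {l : List α} {l' : List β} (hl : List.Forall₂ R l l')
    {T : α → En κ} {T' : β → En κ'} (h : ∀ a ∈ l, ∀ b ∈ l', R a b → It u (T a) (T' b)) :
    It u (l.map T).sum (l'.map T').sum := by
  induction hl with
  | nil => exact zero
  | cons h1 _ ih =>
    simp only [List.map_cons, List.sum_cons]
    exact (h _ (by simp) _ (by simp) h1).add
      (ih fun a ha b hb => h a (by simp [ha]) b (by simp [hb]))
theorem comp {w : CL (Eu κ') (Eu κ'')} {T'' : En κ''} (h : It u T T') (k : It w T' T'') :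
    It (w ∘L u) T T'' := of fun a => by simp only [ContinuousLinearMap.comp_apply, k.app, h.app]
theorem csE {J : En κ} {J' : En κ'} (h : It u J J') (c : ℂ) : It u (csE J c) (csE J' c) :=
  (one.smul _).add (h.smul _)
theorem comm {S T : En κ} : It S T T ↔ S * T = T * S := eq_comm

/-- conjugation formula -/
theorem eq_conj (h : It u T T') {p' : En κ'} (uu : u ∘L trn u = p') (hp : T' * p' = T') :
    T' = u ∘L T ∘L trn u := by
  rw [← ContinuousLinearMap.comp_assoc, ← h, ContinuousLinearMap.comp_assoc, uu]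
  exact hp.symm

theorem eq_conj' (h : It u T T') {p : En κ} (uu : trn u ∘L u = p) (hp : p * T = T) :
    T = trn u ∘L T' ∘L u := by
  rw [h, ← ContinuousLinearMap.comp_assoc, uu]
  exact hp.symm

theorem norm_hs [DecidableEq κ] [DecidableEq κ'] (h : It u T T') {p : En κ} {p' : En κ'}
    (uu : trn u ∘L u = p) (uu' : u ∘L trn u = p') (h1 : p * T = T) (h2 : T * p = T)
    (h3 : T' * p' = T') : ‖hsL T'‖ = ‖hsL T‖ := by
  have e : trn p = p := by rw [← uu, trn_comp, trn_trn]
  rw [h.eq_conj uu' h3, ← cj_hsL, norm_eq_sqrt_real_inner, inner_cj, cj_cj, uu, cj_hsL, e,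
    show p ∘L T ∘L p = T from (congrArg (p * ·) h2).trans h1, ← norm_eq_sqrt_real_inner]

end It

/-! ### paths -/

/-- `u' = u A - A' u` -/
def PR (A : ℝ → En κ) (A' : ℝ → En κ') (u : ℝ → CL (Eu κ) (Eu κ')) : Prop :=
  ∀ s, HasDerivAt u (u s ∘L A s - A' s ∘L u s) s

/-- the first correction -/
def a1 (A p : ℝ → En κ) (s : ℝ) : En κ := A s + ((2 : ℝ) • p s - 1) * cvd A p s

/-- the second correction -/
def a2 (A p q : ℝ → En κ) (s : ℝ) : En κ :=
  a1 A p s - (1 / 2 : ℝ) • (q s * cvd (a1 A p) q s)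

variable {A p q T : ℝ → En κ} {A' p' q' T' : ℝ → En κ'} {u : ℝ → CL (Eu κ) (Eu κ')}

theorem cvd_neg (s : ℝ) : cvd A (-T) s = -cvd A T s := by
  simp only [cvd, deriv.neg, Pi.neg_apply]
  noncomm_ring

theorem a2_neg : a2 A p (-q) = a2 A p q := funext fun s => by
  rw [a2, a2, cvd_neg, Pi.neg_apply, neg_mul_neg]

theorem cont_cvd (hA : Continuous A) (hT : ContDiff ℝ 1 T) : Continuous (cvd A T) :=
  (hT.continuous_deriv le_rfl).add ((hA.mul hT.continuous).sub (hT.continuous.mul hA))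

theorem cont_a1 (hA : Continuous A) (hp : ContDiff ℝ 1 p) : Continuous (a1 A p) :=
  hA.add (((hp.continuous.const_smul (2 : ℝ)).sub continuous_const).mul (cont_cvd hA hp))

theorem cont_a2 (hA : Continuous A) (hp : ContDiff ℝ 1 p) (hq : ContDiff ℝ 1 q) :
    Continuous (a2 A p q) :=
  (cont_a1 hA hp).sub ((hq.continuous.mul (cont_cvd (cont_a1 hA hp) hq)).const_smul (1 / 2 : ℝ))

theorem trp_spec (hA : Continuous A) :
    trp A 0 = 1 ∧ ∀ s, HasDerivAt (trp A) (-(A s * trp A s)) s := by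
  have h : ∃ P : ℝ → En κ, P 0 = 1 ∧ ∀ s, HasDerivAt P (-(A s * P s)) s := by
    obtain ⟨S, -, h1, h2⟩ := R202.LinODE.exists_flow (X := Unit)
      (A := fun _ t => -ContinuousLinearMap.mul ℝ (En κ) (A t))
      (((ContinuousLinearMap.mul ℝ (En κ)).continuous.comp (hA.comp continuous_snd)).neg) 0
      (x0 := fun _ => 1) continuous_const
    exact ⟨S (), h1 (), h2 ()⟩
  rw [trp, dif_pos h]
  exact h.choose_spec

namespace PR
variable (h : PR A A' u)
include h

theorem cvd (hT : Differentiable ℝ T) (hT' : Differentiable ℝ T') (e : ∀ s, It (u s) (T s) (T' s))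
    (s : ℝ) : It (u s) (cvd A T s) (cvd A' T' s) := by
  have k := ((hT' s).hasDerivAt.clm_comp (h s)).unique
    (((h s).clm_comp (hT s).hasDerivAt).congr_of_eventuallyEq (.of_forall fun t => e t))
  refine It.of fun a => ?_
  have k2 := congrArg (fun X : CL (Eu κ) (Eu κ') => X a) k
  simp only [add_apply, sub_apply, ContinuousLinearMap.comp_apply, map_sub, (e s).app] at k2
  simp only [An.cvd, add_apply, sub_apply, mul_apply_eq_comp, map_sub, map_add, (e s).app]
  rw [eq_sub_of_add_eq k2]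
  abel

theorem add {S : ℝ → En κ} {S' : ℝ → En κ'} (e : ∀ s, It (u s) (S s) (S' s)) :
    PR (fun s => A s + S s) (fun s => A' s + S' s) u := fun s => (h s).congr_deriv (by
  rw [ContinuousLinearMap.comp_add, ContinuousLinearMap.add_comp, e s]
  abel)

theorem a1 (hp : Differentiable ℝ p) (hp' : Differentiable ℝ p') (e : ∀ s, It (u s) (p s) (p' s)) :
    PR (a1 A p) (a1 A' p') u :=
  h.add fun s => (((e s).smul _).sub It.one).mul (h.cvd hp hp' e s)

theorem a2 (hp : Differentiable ℝ p) (hp' : Differentiable ℝ p') (e : ∀ s, It (u s) (p s) (p' s))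
    (hq : Differentiable ℝ q) (hq' : Differentiable ℝ q') (f : ∀ s, It (u s) (q s) (q' s)) :
    PR (a2 A p q) (a2 A' p' q') u := by
  have k := (h.a1 hp hp' e).add fun s =>
    (((f s).mul ((h.a1 hp hp' e).cvd hq hq' f s)).smul (1 / 2)).neg
  simp only [← sub_eq_add_neg] at k
  exact k

/-- **transport is natural** -/
theorem trp (hA : Continuous A) (hA' : Continuous A') (s : ℝ) :
    trp A' s ∘L u 0 = u s ∘L trp A s := by
  refine Tmp64.lin_unique
    (L := fun t => -ContinuousLinearMap.compL ℝ (Eu κ) (Eu κ') (Eu κ') (A' t))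
    (((ContinuousLinearMap.compL ℝ (Eu κ) (Eu κ') (Eu κ')).continuous.comp hA').neg)
    (f := fun t => An.trp A' t ∘L u 0) (g := fun t => u t ∘L An.trp A t) (fun t => ?_) (fun t => ?_)
    (t0 := 0) (by rw [(trp_spec hA).1, (trp_spec hA').1]; rfl) s
  · exact (((trp_spec hA').2 t).clm_comp (hasDerivAt_const t (u 0))).congr_deriv
      (ContinuousLinearMap.ext fun a => by simp)
  · exact ((h t).clm_comp ((trp_spec hA).2 t)).congr_deriv
      (ContinuousLinearMap.ext fun a => by simp [← sub_eq_add_neg])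

end PR

/-- the transposed transports -/
theorem trn_nat {P : En κ} {P' : En κ'} {u0 u1 : CL (Eu κ) (Eu κ')} (h : P' ∘L u0 = u1 ∘L P)
    {p0 p1 : En κ} {p0' p1' : En κ'} (a0 : trn u0 ∘L u0 = p0) (a1 : trn u1 ∘L u1 = p1)
    (b0 : u0 ∘L trn u0 = p0') (b1 : u1 ∘L trn u1 = p1') (c0 : u0 ∘L p0 = u0) (c1 : p1' ∘L u1 = u1)
    (k : P ∘L p0 = p1 ∘L P) (k' : P' ∘L p0' = p1' ∘L P') : trn P' ∘L u1 = u0 ∘L trn P := by
  have s0 : trn p0 = p0 := by rw [← a0, trn_comp, trn_trn]
  have s1 : trn p1 = p1 := by rw [← a1, trn_comp, trn_trn]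
  have t0 : trn p0' = p0' := by rw [← b0, trn_comp, trn_trn]
  have t1 : trn p1' = p1' := by rw [← b1, trn_comp, trn_trn]
  have h2 := congrArg trn h
  have k2 := congrArg trn k
  have k3 := congrArg trn k'
  rw [trn_comp, trn_comp] at h2 k2 k3
  rw [s0, s1] at k2
  rw [t0, t1] at k3
  calc trn P' ∘L u1 = (trn P' ∘L p1') ∘L u1 := by rw [ContinuousLinearMap.comp_assoc, c1]
    _ = u0 ∘L (trn u0 ∘L trn P') ∘L u1 := by rw [← k3, ← b0]; rfl
    _ = u0 ∘L trn P ∘L p1 := by rw [h2, ← a1]; rfl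
    _ = u0 ∘L trn P := by rw [← k2, ← ContinuousLinearMap.comp_assoc, c0]

/-! ### Hardy spaces -/

/-- pointwise action on `L²` -/
abbrev LU (u : CL (Eu κ) (Eu κ')) : CL (L2c κ) (L2c κ') := u.compLpL 2 μc

theorem coe_mulC (g : C(UnitAddCircle, En κ)) (f : L2c κ) :
    mulC g f =ᵐ[μc] fun θ => g θ (f θ) := by
  filter_upwards [(ContinuousLinearMap.id ℝ (En κ)).coeFn_holder (r := 2)
    (ContinuousMap.toLp ∞ μc ℝ g) f, ContinuousMap.coeFn_toLp (p := ∞) (μ := μc) (𝕜 := ℝ) g]
    with θ h1 h2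
  exact h1.trans (by rw [h2]; rfl)

theorem LU_LU (u : CL (Eu κ) (Eu κ')) (w : CL (Eu κ') (Eu κ'')) (f : L2c κ) :
    LU w (LU u f) = LU (w ∘L u) f := by
  refine Lp.ext ?_
  filter_upwards [w.coeFn_compLpL (LU u f), u.coeFn_compLpL f, (w ∘L u).coeFn_compLpL f]
    with θ h1 h2 h3
  rw [h1, h2, h3]; rfl

theorem inner_LU (u : CL (Eu κ) (Eu κ')) (f : L2c κ) (g : L2c κ') :
    ⟪LU u f, g⟫_ℝ = ⟪f, LU (trn u) g⟫_ℝ := by
  rw [L2.inner_def, L2.inner_def]
  refine integral_congr_ae ?_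
  filter_upwards [u.coeFn_compLpL f, (trn u).coeFn_compLpL g] with θ h1 h2
  rw [h1, h2, inner_trn']

theorem LU_const (u : CL (Eu κ) (Eu κ')) (a : Eu κ) :
    LU u (Lp.constL 2 μc ℝ a) = Lp.constL 2 μc ℝ (u a) := by
  refine Lp.ext ?_
  filter_upwards [u.coeFn_compLpL (Lp.constL 2 μc ℝ a), Lp.coeFn_const (p := 2) (μ := μc) (c := a),
    Lp.coeFn_const (p := 2) (μ := μc) (c := u a)] with θ h1 h2 h3
  exact h1.trans ((congrArg u h2).trans h3.symm)

theorem mulC_LU {u : CL (Eu κ) (Eu κ')} {g : C(UnitAddCircle, En κ)} {g' : C(UnitAddCircle, En κ')}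
    (h : ∀ θ, It u (g θ) (g' θ)) (f : L2c κ) : mulC g' (LU u f) = LU u (mulC g f) := by
  refine Lp.ext ?_
  filter_upwards [coe_mulC g' (LU u f), u.coeFn_compLpL f, u.coeFn_compLpL (mulC g f),
    coe_mulC g f] with θ h1 h2 h3 h4
  rw [h1, h2, h3, h4, (h θ).app]

theorem it_cm {u : CL (Eu κ) (Eu κ')} {g : UnitAddCircle → En κ} {g' : UnitAddCircle → En κ'}
    (h : ∀ θ, It u (g θ) (g' θ)) (hc : Continuous g ↔ Continuous g') (θ : UnitAddCircle) :
    It u (cm g θ) (cm g' θ) := by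
  by_cases k : Continuous g
  · rw [cm, cm, dif_pos k, dif_pos (hc.1 k)]
    exact h θ
  · rw [cm, cm, dif_neg k, dif_neg fun k' => k (hc.2 k')]
    exact It.zero

theorem cont_csE (J : En κ) (n : ℤ) : Continuous fun θ : UnitAddCircle => csE J (fourier n θ) :=
  ((Complex.continuous_re.comp (fourier n).continuous).smul continuous_const).add
    ((Complex.continuous_im.comp (fourier n).continuous).smul continuous_const)

theorem md_nat {u : CL (Eu κ) (Eu κ')} {J : En κ} {J' : En κ'} (h : It u J J') (n : ℤ) (a : Eu κ) :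
    md J' n (u a) = LU u (md J n a) := by
  rw [md, md, ContinuousLinearMap.comp_apply, ContinuousLinearMap.comp_apply, ← LU_const,
    mulC_LU (it_cm (fun θ => h.csE _) (iff_of_true (cont_csE J n) (cont_csE J' n)))]

theorem fc_nat {u : CL (Eu κ) (Eu κ')} {J : En κ} {J' : En κ'} (h : It (trn u) J' J) (n : ℤ)
    (f : L2c κ) : fc J' n (LU u f) = u (fc J n f) :=
  ext_inner_left ℝ fun b => by
    rw [fc, fc, ContinuousLinearMap.adjoint_inner_right, ← inner_trn,
      ContinuousLinearMap.adjoint_inner_right, md_nat h, inner_LU, trn_trn]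

theorem LU_mem {u : CL (Eu κ) (Eu κ')} {J p : En κ} {J' p' : En κ'} (h : It u J J') (k : It u p p')
    {f : L2c κ} (hf : f ∈ Hd J p) : LU u f ∈ Hd J' p' := by
  refine (Submodule.topologicalClosure_minimal (t := (Hd J' p').comap (LU u : L2c κ →ₗ[ℝ] L2c κ'))
    _ (Submodule.span_le.2 ?_)
    ((Submodule.isClosed_topologicalClosure _).preimage (LU u).continuous)) hf
  rintro _ ⟨_, ⟨n, rfl⟩, a, ha, rfl⟩
  refine Submodule.le_topologicalClosure _ (Submodule.subset_span (mem_iUnion.2 ⟨n, u a, ?_, ?_⟩))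
  · exact (k.app a).trans (congrArg u ha)
  · exact md_nat h n a

/-- the action on Hardy spaces -/
def Uh (J p : En κ) (J' p' : En κ') (u : CL (Eu κ) (Eu κ')) : CL (Hd J p) (Hd J' p') :=
  (Hd J' p').orthogonalProjectionOnto ∘L LU u ∘L (Hd J p).subtypeL

/-- `u` and its transpose intertwine the data of two Hardy spaces -/
structure HI (J p : En κ) (J' p' : En κ') (u : CL (Eu κ) (Eu κ')) : Prop where
  hJ : It u J J'
  hp : It u p p'
  tJ : It (trn u) J' J
  tp : It (trn u) p' p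

namespace HI
variable {J p : En κ} {J' p' : En κ'} {u : CL (Eu κ) (Eu κ')} (h : HI J p J' p' u)
include h

theorem coe (ψ : Hd J p) : (Uh J p J' p' u ψ : L2c κ') = LU u ψ :=
  Submodule.starProjection_eq_self_iff.2 (LU_mem h.hJ h.hp ψ.2)

theorem proj (f : L2c κ) : (Hd J' p').starProjection (LU u f) = LU u ((Hd J p).starProjection f) := by
  refine Submodule.eq_starProjection_of_mem_of_inner_eq_zero
    (LU_mem h.hJ h.hp ((Hd J p).starProjection_apply_mem f)) fun b hb => ?_
  rw [← map_sub, inner_LU]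
  exact (Hd J p).starProjection_inner_eq_zero f _ (LU_mem h.tJ h.tp hb)

theorem cpr {T : CL (L2c κ) (L2c κ)} {T' : CL (L2c κ') (L2c κ')}
    (e : ∀ f, T' (LU u f) = LU u (T f)) (ψ : Hd J p) :
    cpr J' p' T' (Uh J p J' p' u ψ) = Uh J p J' p' u (cpr J p T ψ) := by
  refine Subtype.ext ?_
  rw [h.coe]
  show (Hd J' p').starProjection (T' (Uh J p J' p' u ψ : L2c κ')) = _
  rw [h.coe, e, h.proj]
  rfl

theorem tpz {g : UnitAddCircle → En κ} {g' : UnitAddCircle → En κ'} (e : ∀ θ, It u (g θ) (g' θ))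
    (hc : Continuous g ↔ Continuous g') (ψ : Hd J p) :
    tpz J' p' g' (Uh J p J' p' u ψ) = Uh J p J' p' u (tpz J p g ψ) :=
  h.cpr (mulC_LU (it_cm e hc)) ψ

theorem frk {X : En κ} {X' : En κ'} (e : It u X X') (m n : ℕ) (ψ : Hd J p) :
    frk J' p' m n X' (Uh J p J' p' u ψ) = Uh J p J' p' u (frk J p m n X ψ) :=
  h.cpr (fun f => by
    simp only [ContinuousLinearMap.comp_apply, fc_nat h.tJ, e.app, md_nat h.hJ]) ψ

end HI

theorem LU_self {J p w : En κ} (hJ : It w J J) (hw : ∀ a, p a = a → w a = a) {f : L2c κ}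
    (hf : f ∈ Hd J p) : LU w f = f := by
  refine sub_eq_zero.1 (Submodule.topologicalClosure_minimal (t := (LU w - 1).ker)
    _ (Submodule.span_le.2 ?_) (LU w - 1).isClosed_ker hf)
  rintro _ ⟨_, ⟨n, rfl⟩, a, ha, rfl⟩
  exact sub_eq_zero.2 ((md_nat hJ n a).symm.trans (by rw [hw a ha]; rfl))

theorem HI.norm {J p : En κ} {J' p' : En κ'} {u : CL (Eu κ) (Eu κ')} (h : HI J p J' p' u)
    (hu : ∀ a, p a = a → trn u (u a) = a) (ψ : Hd J p) : ‖Uh J p J' p' u ψ‖ = ‖ψ‖ := by
  rw [Submodule.coe_norm, h.coe, norm_eq_sqrt_real_inner, inner_LU, LU_LU,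
    LU_self (h.hJ.comp h.tJ) hu ψ.2, ← norm_eq_sqrt_real_inner, Submodule.coe_norm]

end Crest.Agent.X212.Cnt93
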